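import Mathlib.Analysis.Normed.Ring.Basic
import Mathlib.Algebra.BigOperators.Ring.Finset
import Mathlib.Tactic

/-!
LB2, T-step, blocks (X) + (E): products of cells in a normed ring.
`seg g a k = g a * g (a+1) * ... * g (a+k-1)`.
-/

namespace Vale.Agent.P321.H776

open Finset

set_option linter.unusedSectionVars false

variable {A : Type*} [NormedRing A]

/-- ordered product of `k` consecutive cells starting at `a`. -/
def seg (g : ℕ → A) (a : ℕ) : ℕ → A
  | 0 => 1
  | k + 1 => seg g a k * g (a + k)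

@[simp] theorem seg_zero (g : ℕ → A) (a : ℕ) : seg g a 0 = 1 := rfl

theorem seg_succ (g : ℕ → A) (a k : ℕ) : seg g a (k + 1) = seg g a k * g (a + k) := rfl

theorem seg_add (g : ℕ → A) (a k l : ℕ) : seg g a (k + l) = seg g a k * seg g (a + k) l := by
  induction l with
  | zero => simp
  | succ l ih => rw [← Nat.add_assoc, seg_succ, ih, seg_succ, mul_assoc, Nat.add_assoc]

theorem seg_congr {g g' : ℕ → A} {a k : ℕ} (h : ∀ t, a ≤ t → t < a + k → g t = g' t) :
    seg g a k = seg g' a k := by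
  induction k with
  | zero => rfl
  | succ k ih =>
    rw [seg_succ, seg_succ, ih fun t h1 h2 => h t h1 (by omega), h (a + k) (by omega) (by omega)]

theorem seg_const (Q : A) (a k : ℕ) : seg (fun _ => Q) a k = Q ^ k := by
  induction k with
  | zero => simp
  | succ k ih => rw [seg_succ, ih, pow_succ]

theorem norm_seg_le (h1 : ‖(1 : A)‖ ≤ 1) (g : ℕ → A) (a k : ℕ) :
    ‖seg g a k‖ ≤ ∏ t ∈ Finset.Ico a (a + k), ‖g t‖ := by
  induction k with
  | zero => simpa using h1
  | succ k ih =>
    rw [seg_succ, ← Nat.add_assoc, Finset.prod_Ico_succ_top (by omega)]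
    refine (norm_mul_le _ _).trans ?_
    gcongr

/-- the block product: content `f t` at the cells of `S`, `Q` elsewhere. -/
def blk (Q : A) (f : ℕ → A) (S : Finset ℕ) (t : ℕ) : A := if t ∈ S then f t else Q

theorem blk_of_mem {Q : A} {f : ℕ → A} {S : Finset ℕ} {t : ℕ} (h : t ∈ S) :
    blk Q f S t = f t := if_pos h

theorem blk_of_notMem {Q : A} {f : ℕ → A} {S : Finset ℕ} {t : ℕ} (h : t ∉ S) :
    blk Q f S t = Q := if_neg h

/-- expansion over subsets. -/
theorem seg_expand (Q : A) (f : ℕ → A) (a k : ℕ) :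
    seg (fun t => Q + f t) a k = ∑ S ∈ (Finset.Ico a (a + k)).powerset, seg (blk Q f S) a k := by
  induction k with
  | zero => simp
  | succ k ih =>
    have hI : Finset.Ico a (a + (k + 1)) = insert (a + k) (Finset.Ico a (a + k)) := by
      ext t; simp only [Finset.mem_Ico, Finset.mem_insert]; omega
    have hn : a + k ∉ Finset.Ico a (a + k) := by simp
    rw [hI, Finset.sum_powerset_insert hn, seg_succ, ih, Finset.sum_mul, ← Finset.sum_add_distrib]
    refine Finset.sum_congr rfl fun S hS => ?_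
    have hS' : a + k ∉ S := fun h => hn (Finset.mem_powerset.mp hS h)
    rw [seg_succ, seg_succ, blk_of_notMem hS', blk_of_mem (Finset.mem_insert_self _ _), mul_add]
    congr 2
    refine seg_congr fun t h1 h2 => ?_
    unfold blk
    have : t ≠ a + k := by omega
    simp [this]

theorem norm_blk_seg_le (h1 : ‖(1 : A)‖ ≤ 1) {Q : A} (hQ : ‖Q‖ ≤ 1) (f : ℕ → A)
    {S : Finset ℕ} {a k : ℕ} {e : ℝ} (he : ∀ t ∈ S, ‖f t‖ ≤ e) (hS : S ⊆ Finset.Ico a (a + k)) :
    ‖seg (blk Q f S) a k‖ ≤ e ^ S.card := by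
  refine (norm_seg_le h1 _ _ _).trans ?_
  calc ∏ t ∈ Finset.Ico a (a + k), ‖blk Q f S t‖
      ≤ ∏ t ∈ Finset.Ico a (a + k), (if t ∈ S then e else 1) := by
        refine Finset.prod_le_prod (fun _ _ => norm_nonneg _) fun t _ => ?_
        unfold blk
        split_ifs with h
        · exact he t h
        · exact hQ
    _ = e ^ S.card := by
        rw [Finset.prod_ite, Finset.prod_const, Finset.prod_const_one, mul_one]
        congr 2
        ext t
        simp only [Finset.mem_filter]
        exact ⟨fun h => h.2, fun h => ⟨hS h, h⟩⟩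

/-- an isolated content `f s` gets its own norm `‖Q^r * f s * Q^r‖`. -/
theorem norm_blk_seg_isolated (h1 : ‖(1 : A)‖ ≤ 1) {Q : A} (hQ : ‖Q‖ ≤ 1) (f : ℕ → A)
    {S : Finset ℕ} {a k s r : ℕ} {e e' : ℝ} (he : ∀ t ∈ S, ‖f t‖ ≤ e) (he0 : 0 ≤ e)
    (hS : S ⊆ Finset.Ico a (a + k))
    (hs : s ∈ S) (hl : a + r ≤ s) (hr : s + r + 1 ≤ a + k)
    (hiso : ∀ t ∈ S, t ≠ s → t + r < s ∨ s + r < t) (he' : ‖Q ^ r * f s * Q ^ r‖ ≤ e') :
    ‖seg (blk Q f S) a k‖ ≤ e ^ (S.card - 1) * e' := by
  obtain ⟨k1, hk1⟩ : ∃ k1, s = a + k1 + r := ⟨s - a - r, by omega⟩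
  obtain ⟨k2, hk2⟩ : ∃ k2, k = k1 + (r + 1 + r) + k2 := ⟨k - (k1 + (r + 1 + r)), by omega⟩
  set g := blk Q f S with hg
  have hmid : seg g (a + k1) (r + 1 + r) = Q ^ r * f s * Q ^ r := by
    rw [seg_add, seg_add, seg_succ, seg_zero, one_mul, Nat.add_zero]
    have e1 : seg g (a + k1) r = Q ^ r := by
      rw [← seg_const Q (a + k1) r]
      refine seg_congr fun t h1 h2 => ?_
      refine blk_of_notMem fun ht => ?_
      rcases hiso t ht (by omega) with h | h <;> omega
    have e2 : seg g (a + k1 + (r + 1)) r = Q ^ r := by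
      rw [← seg_const Q (a + k1 + (r + 1)) r]
      refine seg_congr fun t h1 h2 => ?_
      refine blk_of_notMem fun ht => ?_
      rcases hiso t ht (by omega) with h | h <;> omega
    have e3 : g (a + k1 + r) = f s := by
      rw [← hk1]; exact blk_of_mem hs
    rw [e1, e2, e3]
  have hcard : (S.filter (fun t => t < a + k1)).card
      + (S.filter (fun t => a + k1 + (r + 1 + r) ≤ t)).card = S.card - 1 := by
    rw [← Finset.card_union_of_disjoint, ← Finset.card_erase_of_mem hs]
    · congr 1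
      ext t
      simp only [Finset.mem_union, Finset.mem_filter, Finset.mem_erase]
      constructor
      · rintro (⟨h1, h2⟩ | ⟨h1, h2⟩)
        · exact ⟨by omega, h1⟩
        · exact ⟨by omega, h1⟩
      · rintro ⟨h1, h2⟩
        rcases hiso t h2 h1 with h | h
        · exact Or.inl ⟨h2, by omega⟩
        · exact Or.inr ⟨h2, by omega⟩
    · rw [Finset.disjoint_filter]
      intro t _ h1 h2
      omega
  have hL : ‖seg g a k1‖ ≤ e ^ (S.filter (fun t => t < a + k1)).card := by
    have : seg g a k1 = seg (blk Q f (S.filter (fun t => t < a + k1))) a k1 := by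
      refine seg_congr fun t h1 h2 => ?_
      rw [hg]; unfold blk
      simp [h2]
    rw [this]
    refine norm_blk_seg_le h1 hQ f (fun t ht => he t (Finset.mem_filter.mp ht).1) ?_
    intro t ht
    rw [Finset.mem_filter] at ht
    have := Finset.mem_Ico.mp (hS ht.1)
    rw [Finset.mem_Ico]; omega
  have hR : ‖seg g (a + (k1 + (r + 1 + r))) k2‖
      ≤ e ^ (S.filter (fun t => a + k1 + (r + 1 + r) ≤ t)).card := by
    have : seg g (a + (k1 + (r + 1 + r))) k2 =
        seg (blk Q f (S.filter (fun t => a + k1 + (r + 1 + r) ≤ t))) (a + (k1 + (r + 1 + r))) k2 := by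
      refine seg_congr fun t h1 h2 => ?_
      rw [hg]; unfold blk
      have : a + k1 + (r + 1 + r) ≤ t := by omega
      simp [this]
    rw [this]
    refine norm_blk_seg_le h1 hQ f (fun t ht => he t (Finset.mem_filter.mp ht).1) ?_
    intro t ht
    rw [Finset.mem_filter] at ht
    have := Finset.mem_Ico.mp (hS ht.1)
    rw [Finset.mem_Ico]; omega
  rw [hk2, seg_add, seg_add, hmid, ← hcard, pow_add]
  calc ‖seg g a k1 * (Q ^ r * f s * Q ^ r) * seg g (a + (k1 + (r + 1 + r))) k2‖
      ≤ ‖seg g a k1‖ * ‖Q ^ r * f s * Q ^ r‖ * ‖seg g (a + (k1 + (r + 1 + r))) k2‖ := by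
        refine (norm_mul_le _ _).trans ?_
        gcongr
        exact norm_mul_le _ _
    _ ≤ e ^ (S.filter (fun t => t < a + k1)).card * e'
        * e ^ (S.filter (fun t => a + k1 + (r + 1 + r) ≤ t)).card := by
        have he'0 : 0 ≤ e' := le_trans (norm_nonneg _) he'
        gcongr
    _ = _ := by ring

end Vale.Agent.P321.H776
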