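import Vale.Agent.P321.H834.CSpec

/-!
LB2, T-step, coarse pairs: the FAR part (helper776).
-/

namespace Vale.Agent.P321.H776

open Finset Vale.Agent.P321.H576 Vale.Agent.P321.H834

theorem sg_abs {ι : Type*} [Fintype ι] (n : ι → Bool) : |sg n| = 1 := by
  unfold sg
  rw [Finset.abs_prod]
  refine Finset.prod_eq_one fun b _ => ?_
  split_ifs <;> simp

theorem sgE_abs {k m : ℕ} (n : E k → Fin m → Bool) : |sgE n| = 1 := by
  unfold sgE
  rw [Finset.abs_prod]
  exact Finset.prod_eq_one fun e _ => sg_abs _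

theorem card_E (k : ℕ) : Fintype.card (E k) ≤ k ^ 2 := by
  have h : Fintype.card (E k) = k.choose 2 := by
    simp
  rw [h]
  exact Nat.choose_le_pow k 2

theorem val_nonneg (b : Bool) : 0 ≤ H576.val b := by unfold H576.val; split_ifs <;> norm_num

theorem val_le_one (b : Bool) : H576.val b ≤ 1 := by unfold H576.val; split_ifs <;> norm_num

theorem sem_sum_le {V : Type*} [AddCommGroup V] [Module ℝ V] (p : Seminorm ℝ V) {ι : Type*}
    (s : Finset ι) (f : ι → V) : p (∑ i ∈ s, f i) ≤ ∑ i ∈ s, p (f i) := by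
  classical
  induction s using Finset.induction_on with
  | empty => simp
  | insert a s ha ih =>
    rw [Finset.sum_insert ha, Finset.sum_insert ha]
    exact (map_add_le_add p _ _).trans (by linarith)

theorem S_nonneg {k m : ℕ} {g : E k → Fin m → ℤ} (g0 : ∀ e b, 0 ≤ g e b)
    (n : E k → Fin m → Bool) : 0 ≤ S g n := by
  unfold S Ts Te
  exact Finset.sum_nonneg fun e _ => Finset.sum_nonneg fun b _ =>
    mul_nonneg (val_nonneg _) (g0 e b)

theorem S_le {k m : ℕ} {g : E k → Fin m → ℤ} {G : ℤ} (g0 : ∀ e b, 0 ≤ g e b)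
    (gG : ∀ e b, g e b ≤ G) (hG : 0 ≤ G) (n : E k → Fin m → Bool) :
    S g n ≤ k ^ 2 * m * G := by
  unfold S Ts Te
  have h1 : ∀ e ∈ (univ : Finset (E k)), (∑ b, H576.val (n e b) * g e b) ≤ m * G := by
    intro e _
    calc (∑ b, H576.val (n e b) * g e b) ≤ ∑ _b : Fin m, G := by
          refine Finset.sum_le_sum fun b _ => ?_
          calc H576.val (n e b) * g e b ≤ 1 * G :=
                mul_le_mul (val_le_one _) (gG e b) (g0 e b) (by norm_num)
            _ = G := one_mul _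
      _ = m * G := by simp
  refine (Finset.sum_le_sum h1).trans ?_
  rw [Finset.sum_const, Finset.card_univ, nsmul_eq_mul]
  have h2 : ((Fintype.card (E k) : ℕ) : ℤ) ≤ (k : ℤ) ^ 2 := by exact_mod_cast card_E k
  have h3 : (0 : ℤ) ≤ m * G := by positivity
  nlinarith

theorem card_digits (k m : ℕ) :
    (Fintype.card (E k → Fin m → Bool) : ℝ) ≤ 2 ^ (k ^ 2 * m) := by
  have h1 : Fintype.card (E k → Fin m → Bool) = 2 ^ (m * Fintype.card (E k)) := by
    rw [Fintype.card_fun, Fintype.card_fun, Fintype.card_bool, Fintype.card_fin, ← pow_mul]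
  rw [h1]
  push_cast
  refine pow_le_pow_right₀ (by norm_num) ?_
  have := card_E k
  nlinarith

theorem Gen.G_nonneg {k m : ℕ} {d : Fin k → ℤ} {g : E k → Fin m → ℤ} {F Q G : ℤ}
    (h : Gen d g F Q G) : 0 ≤ G := by
  have hk := h.k3
  have hm := h.m1
  have hne : (⟨0, by omega⟩ : Fin k) ≠ ⟨1, by omega⟩ := by
    intro h
    have := congrArg Fin.val h
    simp at this
  have e : E k := ⟨{⟨0, by omega⟩, ⟨1, by omega⟩}, Finset.card_pair hne⟩
  exact (h.g0 e ⟨0, by omega⟩).trans (h.gG e ⟨0, by omega⟩)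

theorem Gen.Q_ge {k m : ℕ} {d : Fin k → ℤ} {g : E k → Fin m → ℤ} {F Q G : ℤ}
    (h : Gen d g F Q G) : 16 ≤ Q := by
  have h1 := h.F3
  have h2 := h.FQ
  have h3 : (1 : ℤ) ≤ 3 ^ m := one_le_pow₀ (by norm_num)
  linarith

theorem Gen.S_small {k m : ℕ} {d : Fin k → ℤ} {g : E k → Fin m → ℤ} {F Q G : ℤ}
    (h : Gen d g F Q G) (n : E k → Fin m → Bool) : 0 ≤ S g n ∧ 16 * S g n ≤ Q := by
  refine ⟨S_nonneg h.g0 n, ?_⟩
  have h1 := S_le h.g0 h.gG (Gen.G_nonneg h) n
  have h2 := h.GQ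
  linarith

theorem kill0_nonneg {V : Type} [AddCommGroup V] [Module ℝ V] {p : Seminorm ℝ V}
    {B : Finset ℤ → V} {m : ℕ} {C Q : ℤ} {κ : ℝ} (hC : 0 ≤ C) (hQ : 0 ≤ Q)
    (h : Kill0 p B m C Q κ) : 0 ≤ κ := by
  have hCQ : 0 ≤ C * Q := mul_nonneg hC hQ
  have := h 0 (C * Q) (by simpa using hCQ) (by
    rw [zero_sub, abs_neg, abs_of_nonneg hCQ]; linarith)
  exact (apply_nonneg p _).trans this

theorem stFar : StFar := by
  intro V _ _ p B k m d g F Q G C L1 L2 l w w' Lb lp lm κ0 hG hL hC4 hC1 hw hw' hQ1 hQ2 hK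
  have hQ := Gen.Q_ge hG
  have hκ : 0 ≤ κ0 := kill0_nonneg (by omega) (by omega) hK
  -- one (n, t)
  have key : ∀ (n : E k → Fin m → Bool) (t : ℤ), Q < 2 * |t - S g n| →
      p (∑ n0 : Fin m → Bool, sg n0 • GG B C w w' lp lm (Z n0 + S g n) t) ≤ 4 * κ0 := by
    intro n t ht
    obtain ⟨hS0, hS1⟩ := Gen.S_small hG n
    have hone : ∀ (a : ℕ) (b : ℕ), a ≤ Lb → b ≤ Lb →
        p (∑ n0 : Fin m → Bool, sg n0 • B {C * (Z n0 + S g n) + a, C * t + b}) ≤ κ0 := by
      intro a b ha hb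
      have ha' : (a : ℤ) ≤ Lb := by exact_mod_cast ha
      have hb' : (b : ℤ) ≤ Lb := by exact_mod_cast hb
      have ha0 : (0 : ℤ) ≤ a := by positivity
      have hb0 : (0 : ℤ) ≤ b := by positivity
      have h1 := hK (C * S g n + a) (C * t + b) ?_ ?_
      · refine le_trans (le_of_eq ?_) h1
        congr 1
        refine Finset.sum_congr rfl fun n0 _ => ?_
        congr 2
        ring_nf
      · have h0 : 0 ≤ C * S g n + a := by positivity
        rw [abs_of_nonneg h0]
        nlinarith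
      · have h2 : C * S g n + a - (C * t + b) = -(C * (t - S g n)) + (a - b) := by ring
        rw [h2]
        have h3 : |(-(C * (t - S g n)) + ((a : ℤ) - b))| ≥ |C * (t - S g n)| - |((a : ℤ) - b)| := by
          have := abs_sub_abs_le_abs_sub (C * (t - S g n)) ((a : ℤ) - b)
          have h4 : |(-(C * (t - S g n)) + ((a : ℤ) - b))| = |C * (t - S g n) - ((a : ℤ) - b)| := by
            rw [← abs_neg]; congr 1; ring
          rw [h4]; exact this
        have h5 : |((a : ℤ) - b)| ≤ Lb := by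
          rw [abs_le]; constructor <;> linarith
        have h6 : |C * (t - S g n)| = C * |t - S g n| := by
          rw [abs_mul, abs_of_nonneg (by omega : (0 : ℤ) ≤ C)]
        rw [h6] at h3
        nlinarith
    have hl1 := (hL.lb t).1
    have hl2 := (hL.lb t).2
    have hsplit : ∑ n0 : Fin m → Bool, sg n0 • GG B C w w' lp lm (Z n0 + S g n) t
        = (((∑ n0 : Fin m → Bool, sg n0 • B {C * (Z n0 + S g n) + w, C * t + lm t})
          - ∑ n0 : Fin m → Bool, sg n0 • B {C * (Z n0 + S g n) + w', C * t + lm t})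
          + ((∑ n0 : Fin m → Bool, sg n0 • B {C * (Z n0 + S g n) + w, C * t + lp t})
          - ∑ n0 : Fin m → Bool, sg n0 • B {C * (Z n0 + S g n) + w', C * t + lp t})) := by
      rw [← Finset.sum_sub_distrib, ← Finset.sum_sub_distrib, ← Finset.sum_add_distrib]
      refine Finset.sum_congr rfl fun n0 _ => ?_
      unfold GG
      rw [smul_add, smul_sub, smul_sub]
    rw [hsplit]
    have t1 := hone w (lm t) hw hl2
    have t2 := hone w' (lm t) hw' hl2
    have t3 := hone w (lp t) hw hl1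
    have t4 := hone w' (lp t) hw' hl1
    refine (map_add_le_add p _ _).trans ?_
    have s1 := map_sub_le_add p
      (∑ n0 : Fin m → Bool, sg n0 • B {C * (Z n0 + S g n) + w, C * t + lm t})
      (∑ n0 : Fin m → Bool, sg n0 • B {C * (Z n0 + S g n) + w', C * t + lm t})
    have s2 := map_sub_le_add p
      (∑ n0 : Fin m → Bool, sg n0 • B {C * (Z n0 + S g n) + w, C * t + lp t})
      (∑ n0 : Fin m → Bool, sg n0 • B {C * (Z n0 + S g n) + w', C * t + lp t})
    linarith
  -- swap the sums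
  have hswap : (∑ n0 : Fin m → Bool, ∑ n : E k → Fin m → Bool, (sg n0 * sgE n) •
            ∑ t ∈ Icc (-L1) L2 with Q < 2 * |t - S g n|, GG B C w w' lp lm (Z n0 + S g n) t)
      = ∑ n : E k → Fin m → Bool, sgE n • ∑ t ∈ Icc (-L1) L2 with Q < 2 * |t - S g n|,
          ∑ n0 : Fin m → Bool, sg n0 • GG B C w w' lp lm (Z n0 + S g n) t := by
    rw [Finset.sum_comm]
    refine Finset.sum_congr rfl fun n _ => ?_
    rw [Finset.sum_comm, Finset.smul_sum]
    refine Finset.sum_congr rfl fun n0 _ => ?_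
    rw [mul_comm, mul_smul, Finset.smul_sum]
  rw [hswap]
  have hcardL : ∀ n : E k → Fin m → Bool,
      (((Icc (-L1) L2).filter fun t => Q < 2 * |t - S g n|).card : ℝ) ≤ (L1 : ℝ) + L2 + 1 := by
    intro n
    have h1 : ((Icc (-L1) L2).filter fun t => Q < 2 * |t - S g n|).card ≤ (Icc (-L1) L2).card :=
      Finset.card_filter_le _ _
    rw [Int.card_Icc] at h1
    have h2 : ((L2 + 1 - -L1).toNat : ℤ) = L2 + 1 - -L1 := Int.toNat_of_nonneg (by omega)
    have h3 : (((Icc (-L1) L2).filter fun t => Q < 2 * |t - S g n|).card : ℤ) ≤ L1 + L2 + 1 := by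
      omega
    exact_mod_cast h3
  calc p (∑ n : E k → Fin m → Bool, sgE n • ∑ t ∈ Icc (-L1) L2 with Q < 2 * |t - S g n|,
          ∑ n0 : Fin m → Bool, sg n0 • GG B C w w' lp lm (Z n0 + S g n) t)
      ≤ ∑ n : E k → Fin m → Bool, p (sgE n • ∑ t ∈ Icc (-L1) L2 with Q < 2 * |t - S g n|,
          ∑ n0 : Fin m → Bool, sg n0 • GG B C w w' lp lm (Z n0 + S g n) t) :=
        sem_sum_le p _ _
    _ ≤ ∑ n : E k → Fin m → Bool, ((L1 : ℝ) + L2 + 1) * (4 * κ0) := by
        refine Finset.sum_le_sum fun n _ => ?_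
        rw [map_smul_eq_mul, Real.norm_eq_abs, sgE_abs, one_mul]
        refine (sem_sum_le p _ _).trans ?_
        refine (Finset.sum_le_card_nsmul _ _ (4 * κ0) fun t ht => ?_).trans ?_
        · exact key n t (Finset.mem_filter.mp ht).2
        · rw [nsmul_eq_mul]
          exact mul_le_mul_of_nonneg_right (hcardL n) (by positivity)
    _ = (Fintype.card (E k → Fin m → Bool) : ℝ) * (((L1 : ℝ) + L2 + 1) * (4 * κ0)) := by
        rw [Finset.sum_const, Finset.card_univ, nsmul_eq_mul]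
    _ ≤ 2 ^ (k ^ 2 * m) * (((L1 : ℝ) + L2 + 1) * (4 * κ0)) := by
        have h1 : (0 : ℝ) ≤ (L1 : ℝ) + L2 + 1 := by
          have : (0 : ℤ) ≤ L1 + L2 + 1 := by omega
          exact_mod_cast this
        exact mul_le_mul_of_nonneg_right (card_digits k m) (by positivity)
    _ = 2 ^ (k ^ 2 * m + 2) * ((L1 : ℝ) + L2 + 1) * κ0 := by
        rw [pow_add]; ring

end Vale.Agent.P321.H776
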