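import Vale.Agent.P321.H776.XE

/-!
LB2, T-step: corollaries of the tail bound.
-/

namespace Vale.Agent.P321.H776

open Finset

set_option linter.unusedSectionVars false

variable {A : Type*} [NormedRing A]

theorem norm_pow_le_one (h1 : ‖(1 : A)‖ ≤ 1) {Q : A} (hQ : ‖Q‖ ≤ 1) (n : ℕ) : ‖Q ^ n‖ ≤ 1 := by
  rcases Nat.eq_zero_or_pos n with rfl | hn
  · simpa using h1
  · exact (norm_pow_le' Q hn).trans (pow_le_one₀ (norm_nonneg _) hQ)

theorem norm_seg_le_one (h1 : ‖(1 : A)‖ ≤ 1) (g : ℕ → A) (a n : ℕ)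
    (hg : ∀ t, a ≤ t → t < a + n → ‖g t‖ ≤ 1) : ‖seg g a n‖ ≤ 1 := by
  refine (norm_seg_le h1 g a n).trans ?_
  refine Finset.prod_le_one (fun _ _ => norm_nonneg _) fun t ht => ?_
  rw [Finset.mem_Ico] at ht
  exact hg t ht.1 ht.2

/-- the left hypothesis of `tail_bound` for an unexpanded context of `n ≥ r` cells. -/
theorem ctx_left (h1 : ‖(1 : A)‖ ≤ 1) {Q : A} (hQ : ‖Q‖ ≤ 1) (g : ℕ → A) {a n : ℕ} {e : ℝ}
    (he : ∀ t, a ≤ t → t < a + n → ‖g t‖ ≤ e) (he0 : 0 ≤ e)
    (hQg : ∀ t, a ≤ t → t < a + n → ‖Q + g t‖ ≤ 1) {r : ℕ} (hr : r ≤ n) {x : A} {e2 : ℝ}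
    (hx : ‖x‖ ≤ e) (hx2 : ‖Q ^ r * x * Q ^ r‖ ≤ e2) (s : ℕ) :
    ‖seg (fun t => Q + g t) a n * Q ^ s * x * Q ^ r‖ ≤ e2 + n * e ^ 2 := by
  have h2 := seg_sub_pow h1 hQ g he he0 hQg
  have hs : seg (fun t => Q + g t) a n * Q ^ s * x * Q ^ r
      = (seg (fun t => Q + g t) a n - Q ^ n) * Q ^ s * x * Q ^ r
        + Q ^ (n - r) * Q ^ s * (Q ^ r * x * Q ^ r) := by
    have : Q ^ n = Q ^ (n - r) * Q ^ r := by rw [← pow_add]; congr 1; omega
    have hc : Q ^ r * Q ^ s = Q ^ s * Q ^ r := by rw [← pow_add, ← pow_add, add_comm]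
    calc seg (fun t => Q + g t) a n * Q ^ s * x * Q ^ r
        = (seg (fun t => Q + g t) a n - Q ^ n) * Q ^ s * x * Q ^ r
          + Q ^ n * Q ^ s * x * Q ^ r := by noncomm_ring
      _ = _ := by
        rw [this]
        congr 1
        calc Q ^ (n - r) * Q ^ r * Q ^ s * x * Q ^ r
            = Q ^ (n - r) * (Q ^ r * Q ^ s) * x * Q ^ r := by noncomm_ring
          _ = Q ^ (n - r) * (Q ^ s * Q ^ r) * x * Q ^ r := by rw [hc]
          _ = _ := by noncomm_ring
  rw [hs]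
  refine (norm_add_le _ _).trans ?_
  have k1 : ‖(seg (fun t => Q + g t) a n - Q ^ n) * Q ^ s * x * Q ^ r‖ ≤ n * e ^ 2 := by
    calc _ ≤ ‖seg (fun t => Q + g t) a n - Q ^ n‖ * ‖Q ^ s‖ * ‖x‖ * ‖Q ^ r‖ := by
          refine (norm_mul_le _ _).trans ?_
          gcongr
          refine (norm_mul_le _ _).trans ?_
          gcongr
          exact norm_mul_le _ _
      _ ≤ (n * e) * 1 * e * 1 := by
          gcongr
          · exact norm_pow_le_one h1 hQ s
          · exact norm_pow_le_one h1 hQ r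
      _ = _ := by ring
  have k2 : ‖Q ^ (n - r) * Q ^ s * (Q ^ r * x * Q ^ r)‖ ≤ e2 := by
    calc _ ≤ ‖Q ^ (n - r)‖ * ‖Q ^ s‖ * ‖Q ^ r * x * Q ^ r‖ := by
          refine (norm_mul_le _ _).trans ?_
          gcongr
          exact norm_mul_le _ _
      _ ≤ 1 * 1 * e2 := by
          gcongr
          · exact norm_pow_le_one h1 hQ _
          · exact norm_pow_le_one h1 hQ _
      _ = _ := by ring
  linarith

/-- the right hypothesis of `tail_bound` for an unexpanded context of `n ≥ r` cells. -/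
theorem ctx_right (h1 : ‖(1 : A)‖ ≤ 1) {Q : A} (hQ : ‖Q‖ ≤ 1) (g : ℕ → A) {a n : ℕ} {e : ℝ}
    (he : ∀ t, a ≤ t → t < a + n → ‖g t‖ ≤ e) (he0 : 0 ≤ e)
    (hQg : ∀ t, a ≤ t → t < a + n → ‖Q + g t‖ ≤ 1) {r : ℕ} (hr : r ≤ n) {x : A} {e2 : ℝ}
    (hx : ‖x‖ ≤ e) (hx2 : ‖Q ^ r * x * Q ^ r‖ ≤ e2) (s : ℕ) :
    ‖Q ^ r * x * Q ^ s * seg (fun t => Q + g t) a n‖ ≤ e2 + n * e ^ 2 := by
  have h2 := seg_sub_pow h1 hQ g he he0 hQg
  have hs : Q ^ r * x * Q ^ s * seg (fun t => Q + g t) a n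
      = Q ^ r * x * Q ^ s * (seg (fun t => Q + g t) a n - Q ^ n)
        + (Q ^ r * x * Q ^ r) * (Q ^ s * Q ^ (n - r)) := by
    have : Q ^ n = Q ^ r * Q ^ (n - r) := by rw [← pow_add]; congr 1; omega
    have hc : Q ^ r * Q ^ s = Q ^ s * Q ^ r := by rw [← pow_add, ← pow_add, add_comm]
    calc Q ^ r * x * Q ^ s * seg (fun t => Q + g t) a n
        = Q ^ r * x * Q ^ s * (seg (fun t => Q + g t) a n - Q ^ n)
          + Q ^ r * x * Q ^ s * Q ^ n := by noncomm_ring
      _ = _ := by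
        rw [this]
        congr 1
        calc Q ^ r * x * Q ^ s * (Q ^ r * Q ^ (n - r))
            = Q ^ r * x * (Q ^ s * Q ^ r) * Q ^ (n - r) := by noncomm_ring
          _ = Q ^ r * x * (Q ^ r * Q ^ s) * Q ^ (n - r) := by rw [hc]
          _ = _ := by noncomm_ring
  rw [hs]
  refine (norm_add_le _ _).trans ?_
  have k1 : ‖Q ^ r * x * Q ^ s * (seg (fun t => Q + g t) a n - Q ^ n)‖ ≤ n * e ^ 2 := by
    calc _ ≤ ‖Q ^ r‖ * ‖x‖ * ‖Q ^ s‖ * ‖seg (fun t => Q + g t) a n - Q ^ n‖ := by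
          refine (norm_mul_le _ _).trans ?_
          gcongr
          refine (norm_mul_le _ _).trans ?_
          gcongr
          exact norm_mul_le _ _
      _ ≤ 1 * e * 1 * (n * e) := by
          gcongr
          · exact norm_pow_le_one h1 hQ r
          · exact norm_pow_le_one h1 hQ s
      _ = _ := by ring
  have k2 : ‖(Q ^ r * x * Q ^ r) * (Q ^ s * Q ^ (n - r))‖ ≤ e2 := by
    calc _ ≤ ‖Q ^ r * x * Q ^ r‖ * (‖Q ^ s‖ * ‖Q ^ (n - r)‖) := by
          refine (norm_mul_le _ _).trans ?_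
          gcongr
          exact norm_mul_le _ _
      _ ≤ e2 * (1 * 1) := by
          have he2 : 0 ≤ e2 := (norm_nonneg _).trans hx2
          gcongr
          · exact norm_pow_le_one h1 hQ _
          · exact norm_pow_le_one h1 hQ _
      _ = _ := by ring
  linarith

/-- `∑_{|S| ≥ j} e^|S| ≤ 2 (L e)^j` if `L e ≤ 1/2`. -/
theorem sum_card_ge (j : ℕ) {L : ℕ} {e : ℝ} (he0 : 0 ≤ e) (hLe : L * e ≤ 1 / 2) :
    ∑ S ∈ (Finset.range L).powerset.filter (fun S => j ≤ S.card), e ^ S.card ≤ 2 * (L * e) ^ j := by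
  have h1 : ∑ S ∈ (Finset.range L).powerset.filter (fun S => j ≤ S.card), e ^ S.card
      ≤ ∑ i ∈ Finset.Ico j (L + 1), (L * e) ^ i := by
    rw [← Finset.sum_fiberwise_of_maps_to (s := (Finset.range L).powerset.filter
      (fun S => j ≤ S.card)) (t := Finset.Ico j (L + 1)) (g := fun S => S.card)]
    · refine Finset.sum_le_sum fun i hi => ?_
      have h2 : ∑ S ∈ ((Finset.range L).powerset.filter (fun S => j ≤ S.card)).filter
          (fun S => S.card = i), e ^ S.card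
          ≤ ∑ S ∈ (Finset.range L).powersetCard i, e ^ i := by
        have h3 : ∑ S ∈ ((Finset.range L).powerset.filter (fun S => j ≤ S.card)).filter
          (fun S => S.card = i), e ^ S.card = ∑ S ∈ ((Finset.range L).powerset.filter
            (fun S => j ≤ S.card)).filter (fun S => S.card = i), e ^ i := by
          refine Finset.sum_congr rfl fun S hS => ?_
          rw [(Finset.mem_filter.mp hS).2]
        rw [h3]
        refine Finset.sum_le_sum_of_subset_of_nonneg ?_ fun _ _ _ => by positivity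
        intro S hS
        simp only [Finset.mem_filter, Finset.mem_powerset] at hS
        exact Finset.mem_powersetCard.mpr ⟨hS.1.1, hS.2⟩
      refine h2.trans ?_
      rw [Finset.sum_const, Finset.card_powersetCard, Finset.card_range, nsmul_eq_mul, mul_pow]
      gcongr
      exact_mod_cast Nat.choose_le_pow L i
    · intro S hS
      simp only [Finset.mem_filter, Finset.mem_powerset] at hS
      have := Finset.card_le_card hS.1
      rw [Finset.card_range] at this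
      rw [Finset.mem_Ico]
      omega
  refine h1.trans ?_
  set x : ℝ := (L : ℝ) * e with hx
  have hx0 : 0 ≤ x := by positivity
  have h4 : ∑ i ∈ Finset.Ico j (L + 1), x ^ i ≤ ∑ i ∈ Finset.range (L + 1), x ^ j * x ^ i := by
    rw [Finset.sum_Ico_eq_sum_range]
    calc ∑ i ∈ Finset.range (L + 1 - j), x ^ (j + i)
        = ∑ i ∈ Finset.range (L + 1 - j), x ^ j * x ^ i := by
          refine Finset.sum_congr rfl fun i _ => ?_
          rw [pow_add]
      _ ≤ _ := by
          refine Finset.sum_le_sum_of_subset_of_nonneg ?_ fun _ _ _ => by positivity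
          exact Finset.range_mono (by omega)
  refine h4.trans ?_
  rw [← Finset.mul_sum]
  have h5 : ∑ i ∈ Finset.range (L + 1), x ^ i ≤ 2 := by
    have h6 : (∑ i ∈ Finset.range (L + 1), x ^ i) * (1 - x) = 1 - x ^ (L + 1) := by
      have := geom_sum_mul x (L + 1)
      linarith
    have h7 : 0 ≤ x ^ (L + 1) := by positivity
    have h8 : 0 ≤ ∑ i ∈ Finset.range (L + 1), x ^ i := Finset.sum_nonneg fun _ _ => by positivity
    nlinarith
  calc x ^ j * ∑ i ∈ Finset.range (L + 1), x ^ i ≤ x ^ j * 2 := by gcongr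
    _ = 2 * x ^ j := by ring

/-- general tail: all terms outside a family `𝓕` containing the `S` with `|S| < j`. -/
theorem tail_card (h1 : ‖(1 : A)‖ ≤ 1) {Q : A} (hQ : ‖Q‖ ≤ 1) (f f' : ℕ → A) (AL AR : A)
    (hAL : ‖AL‖ ≤ 1) (hAR : ‖AR‖ ≤ 1) {L : ℕ} {e : ℝ} (j : ℕ)
    (he : ∀ t < L, ‖f t‖ ≤ e) (he2 : ∀ t < L, ‖f' t‖ ≤ e) (he0 : 0 ≤ e)
    (hLe : L * e ≤ 1 / 2) :
    ‖AL * (seg (fun t => Q + f' t) 0 L - seg (fun t => Q + f t) 0 L) * AR‖
      ≤ ‖∑ S ∈ (Finset.range L).powerset.filter (fun S => S.card < j),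
            AL * dlt Q f f' L S * AR‖ + 4 * (L * e) ^ j := by
  classical
  have hIco : ∀ S : Finset ℕ, S ⊆ Finset.range L → S ⊆ Finset.Ico 0 (0 + L) := by
    intro S hS
    rwa [Nat.zero_add, ← Finset.range_eq_Ico]
  rw [diff_expand, Finset.mul_sum, Finset.sum_mul]
  rw [← Finset.sum_filter_add_sum_filter_not (Finset.range L).powerset (fun S => S.card < j)]
  refine (norm_add_le _ _).trans ?_
  gcongr
  refine (norm_sum_le _ _).trans ?_
  have hterm : ∀ S ∈ (Finset.range L).powerset.filter (fun S => ¬ S.card < j),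
      ‖AL * dlt Q f f' L S * AR‖ ≤ 2 * e ^ S.card := by
    intro S hS
    rw [Finset.mem_filter, Finset.mem_powerset] at hS
    have hSL := hS.1
    have hfS : ∀ t ∈ S, ‖f t‖ ≤ e := fun t ht => he t (Finset.mem_range.mp (hSL ht))
    have hfS' : ∀ t ∈ S, ‖f' t‖ ≤ e := fun t ht => he2 t (Finset.mem_range.mp (hSL ht))
    have k1 := norm_blk_seg_le h1 hQ f' hfS' (hIco S hSL)
    have k2 := norm_blk_seg_le h1 hQ f hfS (hIco S hSL)
    calc _ ≤ ‖AL‖ * ‖dlt Q f f' L S‖ * ‖AR‖ := by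
          refine (norm_mul_le _ _).trans ?_
          gcongr
          exact norm_mul_le _ _
      _ ≤ 1 * (2 * e ^ S.card) * 1 := by
          gcongr
          unfold dlt
          refine (norm_sub_le _ _).trans ?_
          linarith
      _ = _ := by ring
  refine (Finset.sum_le_sum hterm).trans ?_
  rw [← Finset.mul_sum]
  have h3 := sum_card_ge j he0 hLe
  have h4 : (Finset.range L).powerset.filter (fun S => ¬ S.card < j)
      = (Finset.range L).powerset.filter (fun S => j ≤ S.card) := by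
    ext S; simp
  rw [h4]
  linarith

end Vale.Agent.P321.H776
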