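import Mathlib.Data.Finset.Max
import Mathlib.Data.Finset.Card
import Mathlib.Tactic

/-!
LB2: a set of three cells that is not fine has a one-sided isolated element.
-/

namespace Vale.Agent.P321.H776

open Finset

/-- a set of naturals with three elements, not all within `2 F` of each other, has an element
isolated to the right (its minimum) or to the left (its maximum). -/
theorem not_fine_iso {S : Finset ℕ} (hS : S.card = 3) {F : ℕ}
    (hF : ¬ ∀ s ∈ S, ∀ t ∈ S, |(s : ℤ) - (t : ℤ)| ≤ 2 * (F : ℤ)) :
    (∃ s ∈ S, ∀ t ∈ S, t ≠ s → s + F < t) ∨ (∃ s ∈ S, ∀ t ∈ S, t ≠ s → t + F < s) := by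
  have hne : S.Nonempty := by rw [← Finset.card_pos]; omega
  set a := S.min' hne with ha
  set c := S.max' hne with hc
  have hamem : a ∈ S := S.min'_mem hne
  have hcmem : c ∈ S := S.max'_mem hne
  have hmin : ∀ t ∈ S, a ≤ t := fun t ht => S.min'_le t ht
  have hmax : ∀ t ∈ S, t ≤ c := fun t ht => S.le_max' t ht
  have hac : a + 2 * F < c := by
    by_contra hcon
    refine hF fun s hs t ht => ?_
    have h1 := hmin s hs
    have h2 := hmin t ht
    have h3 := hmax s hs
    have h4 := hmax t ht
    rw [abs_le]
    constructor <;> omega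
  by_cases hL : ∀ t ∈ S, t ≠ a → a + F < t
  · exact Or.inl ⟨a, hamem, hL⟩
  · right
    push Not at hL
    obtain ⟨b, hb, hba, hbF⟩ := hL
    refine ⟨c, hcmem, fun t ht htc => ?_⟩
    -- S = {a, b, c}
    have hbc : b ≠ c := by omega
    have hca : a ≠ c := by omega
    have hsub : ({a, b, c} : Finset ℕ) ⊆ S := by
      intro x hx
      simp only [Finset.mem_insert, Finset.mem_singleton] at hx
      rcases hx with rfl | rfl | rfl
      · exact hamem
      · exact hb
      · exact hcmem
    have hcard : ({a, b, c} : Finset ℕ).card = 3 := by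
      rw [Finset.card_insert_of_notMem, Finset.card_pair hbc]
      simp only [Finset.mem_insert, Finset.mem_singleton, not_or]
      exact ⟨fun h => hba h.symm, hca⟩
    have heq : ({a, b, c} : Finset ℕ) = S :=
      Finset.eq_of_subset_of_card_le hsub (by rw [hcard, hS])
    rw [← heq] at ht
    simp only [Finset.mem_insert, Finset.mem_singleton] at ht
    rcases ht with h | h | h
    · omega
    · omega
    · exact absurd h htc

end Vale.Agent.P321.H776
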