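import Vale.Agent.P321.H776.Cor
import Vale.Agent.P321.H776.Iso
import Vale.Agent.P321.H576.TSpec
import Vale.Agent.P321.H117.NCells

/-!
LB2, T-step: glue between the cell level (`tail_bound`), the letter level (`BL`) and the sums over
sets of integer cells of `H576.TSpec` (helper776, G2(b)+(c)).
-/

namespace Vale.Agent.P321.H776

open Finset Vale.Agent.P321.H576

set_option linter.unusedSectionVars false

section

variable {A : Type*} [NormedRing A]

theorem seg_eq (g : ℕ → A) (a k : ℕ) : seg g a k = H117.seg g a k := by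
  induction k with
  | zero => rfl
  | succ k ih => rw [seg_succ, H117.seg_succ, ih]

/-- letters to cells -/
theorem seg_letters (g : ℕ → A) (C L : ℕ) :
    H117.seg g 0 (C * L) = H117.seg (fun s => H117.seg g (C * s) C) 0 L := by
  induction L with
  | zero => simp
  | succ L ih => rw [Nat.mul_succ, H117.seg_add, ih, H117.seg_succ, Nat.zero_add, Nat.zero_add]

/-- letter level: the letters `i < n`, `v` at the letters with `i - o ∈ S` -/
def BL (AL AR Y v : A) (o : ℤ) (n : ℕ) (S : Finset ℤ) : A :=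
  AL * H117.seg (fun i : ℕ => if ((i : ℤ) - o) ∈ S then v else Y) 0 n * AR

/-- content of the cell `s` -/
def ct (Y v : A) (C c0 : ℕ) (lab : ℤ → ℕ) (L1 : ℤ) (s : ℕ) : A :=
  Y ^ (c0 + lab ((s : ℤ) - L1)) * v * Y ^ (C - 1 - (c0 + lab ((s : ℤ) - L1)))

theorem cell_content (Y v : A) {C c0 : ℕ} {lab : ℤ → ℕ} {L1 : ℤ}
    (hlab : ∀ t, c0 + lab t + 1 ≤ C) (P : Finset ℤ) (s : ℕ) :
    H117.seg (fun i : ℕ => if ((i : ℤ) - (C * L1 + c0)) ∈ pos C lab P then v else Y) (C * s) C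
      = if (s : ℤ) - L1 ∈ P then ct Y v C c0 lab L1 s else Y ^ C := by
  have hmem : ∀ j : ℕ, j < C → ((((C * s + j : ℕ) : ℤ) - (C * L1 + c0)) ∈ pos C lab P ↔
      ((s : ℤ) - L1 ∈ P ∧ j = c0 + lab ((s : ℤ) - L1))) := by
    intro j hj
    unfold pos
    rw [Finset.mem_image]
    constructor
    · rintro ⟨t, ht, e⟩
      have h1 := hlab t
      have e' : (C : ℤ) * (t - (s - L1)) = j - (c0 + lab t) := by
        push_cast at e
        linarith
      have h2 : t - ((s : ℤ) - L1) = 0 := by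
        by_contra hne
        have h3 : (C : ℤ) ≤ |(C : ℤ) * (t - (s - L1))| := by
          rw [abs_mul, abs_of_nonneg (by positivity : (0 : ℤ) ≤ C)]
          have : (1 : ℤ) ≤ |t - ((s : ℤ) - L1)| := Int.one_le_abs hne
          nlinarith
        rw [e'] at h3
        have h4 : |((j : ℤ) - (c0 + lab t))| < C := by
          rw [abs_lt]
          constructor <;> omega
        omega
      have h5 : t = (s : ℤ) - L1 := by omega
      subst h5
      refine ⟨ht, ?_⟩
      rw [h2, mul_zero] at e'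
      omega
    · rintro ⟨h1, h2⟩
      refine ⟨_, h1, ?_⟩
      rw [h2]
      push_cast
      ring
  split_ifs with hs
  · have h1 := hlab ((s : ℤ) - L1)
    unfold ct
    generalize hc : c0 + lab ((s : ℤ) - L1) = c at hmem h1 ⊢
    obtain ⟨r, hr⟩ : ∃ r, C = c + (1 + r) := ⟨C - c - 1, by omega⟩
    have hr' : C - 1 - c = r := by omega
    rw [hr']
    conv_lhs => rw [show H117.seg (fun i : ℕ => if ((i : ℤ) - (C * L1 + c0)) ∈ pos C lab P then v
      else Y) (C * s) C = H117.seg (fun i : ℕ => if ((i : ℤ) - (C * L1 + c0)) ∈ pos C lab P then v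
      else Y) (C * s) (c + (1 + r)) by rw [← hr]]
    rw [H117.seg_add, H117.seg_add, H117.seg_one]
    have e1 : H117.seg (fun i : ℕ => if ((i : ℤ) - (C * L1 + c0)) ∈ pos C lab P then v
      else Y) (C * s) c = Y ^ c := by
      refine H117.seg_eq_pow fun j hj => ?_
      rw [if_neg]
      rw [hmem j (by omega)]
      rintro ⟨_, h⟩
      omega
    have e2 : (if (((C * s + c : ℕ) : ℤ) - (C * L1 + c0)) ∈ pos C lab P then v else Y) = v := by
      rw [if_pos]
      rw [hmem c (by omega)]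
      exact ⟨hs, rfl⟩
    have e3 : H117.seg (fun i : ℕ => if ((i : ℤ) - (C * L1 + c0)) ∈ pos C lab P then v
      else Y) (C * s + c + 1) r = Y ^ r := by
      refine H117.seg_eq_pow fun j hj => ?_
      have : C * s + c + 1 + j = C * s + (c + 1 + j) := by ring
      rw [this, if_neg]
      rw [hmem (c + 1 + j) (by omega)]
      rintro ⟨_, h⟩
      omega
    rw [e1, e2, e3, mul_assoc]
  · refine H117.seg_eq_pow fun j hj => ?_
    rw [if_neg]
    rw [hmem j hj]
    rintro ⟨h, _⟩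
    exact hs h

/-- cells as naturals -/
def toN (L1 : ℤ) (P : Finset ℤ) : Finset ℕ := P.image fun t => (t + L1).toNat

theorem mem_toN {L1 : ℤ} {P : Finset ℤ} (hP : ∀ t ∈ P, -L1 ≤ t) (s : ℕ) :
    s ∈ toN L1 P ↔ (s : ℤ) - L1 ∈ P := by
  unfold toN
  rw [Finset.mem_image]
  constructor
  · rintro ⟨t, ht, e⟩
    have h1 := hP t ht
    have : t = (s : ℤ) - L1 := by omega
    rwa [← this]
  · intro h
    exact ⟨_, h, by omega⟩

theorem BL_pos (AL AR Y v : A) {C c0 : ℕ} {lab : ℤ → ℕ} {L1 : ℤ}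
    (hlab : ∀ t, c0 + lab t + 1 ≤ C) (P : Finset ℤ) (hP : ∀ t ∈ P, -L1 ≤ t) (L : ℕ) :
    BL AL AR Y v (C * L1 + c0) (C * L) (pos C lab P)
      = AL * seg (blk (Y ^ C) (ct Y v C c0 lab L1) (toN L1 P)) 0 L * AR := by
  unfold BL
  rw [seg_letters, seg_eq]
  congr 2
  refine H117.seg_congr fun s hs => ?_
  rw [cell_content Y v hlab]
  unfold blk
  simp only [mem_toN hP]

end

section sums

variable {L1 L2 : ℤ}

/-- fine sets of natural cells -/
def FineN (F : ℕ) (S : Finset ℕ) : Prop := ∀ s ∈ S, ∀ t ∈ S, |(s : ℤ) - (t : ℤ)| ≤ 2 * (F : ℤ)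

theorem toN_card {P : Finset ℤ} (hP : ∀ t ∈ P, -L1 ≤ t) : (toN L1 P).card = P.card := by
  unfold toN
  refine Finset.card_image_of_injOn ?_
  intro a ha b hb hab
  have h1 := hP a ha
  have h2 := hP b hb
  simp only at hab
  omega

theorem fine_toN {F : ℕ} {P : Finset ℤ} (hP : ∀ t ∈ P, -L1 ≤ t) :
    Fine (F : ℤ) P ↔ FineN F (toN L1 P) := by
  unfold Fine FineN
  constructor
  · intro h s hs t ht
    rw [mem_toN hP] at hs ht
    have := h _ hs _ ht
    have e : ((s : ℤ) - L1) - ((t : ℤ) - L1) = (s : ℤ) - t := by ring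
    rwa [e] at this
  · intro h s hs t ht
    have h1 := hP s hs
    have h2 := hP t ht
    have e1 : (((s + L1).toNat : ℕ) : ℤ) = s + L1 := Int.toNat_of_nonneg (by omega)
    have e2 : (((t + L1).toNat : ℕ) : ℤ) = t + L1 := Int.toNat_of_nonneg (by omega)
    have m1 : (s + L1).toNat ∈ toN L1 P := by
      rw [mem_toN hP, e1]; simpa using hs
    have m2 : (t + L1).toNat ∈ toN L1 P := by
      rw [mem_toN hP, e2]; simpa using ht
    have := h _ m1 _ m2
    rw [e1, e2] at this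
    have e : (s + L1) - (t + L1) = s - t := by ring
    rwa [e] at this

/-- transfer of sums over sets of cells -/
theorem sum_toN {V : Type*} [AddCommMonoid V] {L : ℕ} (hL : (L : ℤ) = L1 + L2 + 1)
    (p : Finset ℕ → Prop) [DecidablePred p] (p' : Finset ℤ → Prop) [DecidablePred p']
    (hp : ∀ P : Finset ℤ, (∀ t ∈ P, -L1 ≤ t) → (p' P ↔ p (toN L1 P))) (f : Finset ℕ → V) :
    ∑ P ∈ (Icc (-L1) L2).powerset with p' P, f (toN L1 P)
      = ∑ S ∈ (range L).powerset with p S, f S := by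
  refine Finset.sum_nbij' (fun P => toN L1 P) (fun S => S.image fun s : ℕ => (s : ℤ) - L1)
    ?_ ?_ ?_ ?_ ?_
  · intro P hP
    rw [Finset.mem_filter, Finset.mem_powerset] at hP ⊢
    have hP' : ∀ t ∈ P, -L1 ≤ t := fun t ht => (Finset.mem_Icc.mp (hP.1 ht)).1
    refine ⟨?_, (hp P hP').mp hP.2⟩
    intro s hs
    rw [mem_toN hP'] at hs
    have := Finset.mem_Icc.mp (hP.1 hs)
    rw [Finset.mem_range]
    omega
  · intro S hS
    rw [Finset.mem_filter, Finset.mem_powerset] at hS ⊢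
    have hsub : S.image (fun s : ℕ => (s : ℤ) - L1) ⊆ Icc (-L1) L2 := by
      intro t ht
      rw [Finset.mem_image] at ht
      obtain ⟨s, hs, rfl⟩ := ht
      have := Finset.mem_range.mp (hS.1 hs)
      rw [Finset.mem_Icc]
      constructor <;> omega
    refine ⟨hsub, ?_⟩
    have hP' : ∀ t ∈ S.image (fun s : ℕ => (s : ℤ) - L1), -L1 ≤ t :=
      fun t ht => (Finset.mem_Icc.mp (hsub ht)).1
    rw [hp _ hP']
    have : toN L1 (S.image fun s : ℕ => (s : ℤ) - L1) = S := by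
      ext s
      rw [mem_toN hP', Finset.mem_image]
      constructor
      · rintro ⟨s', hs', e⟩
        have : s' = s := by omega
        rwa [← this]
      · intro h
        exact ⟨s, h, rfl⟩
    rw [this]
    exact hS.2
  · intro P hP
    rw [Finset.mem_filter, Finset.mem_powerset] at hP
    have hP' : ∀ t ∈ P, -L1 ≤ t := fun t ht => (Finset.mem_Icc.mp (hP.1 ht)).1
    ext t
    rw [Finset.mem_image]
    constructor
    · rintro ⟨s, hs, rfl⟩
      exact (mem_toN hP' s).mp hs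
    · intro ht
      have h1 := hP' t ht
      have e1 : (((t + L1).toNat : ℕ) : ℤ) = t + L1 := Int.toNat_of_nonneg (by omega)
      refine ⟨(t + L1).toNat, ?_, by rw [e1]; ring⟩
      rw [mem_toN hP', e1]
      simpa using ht
  · intro S hS
    rw [Finset.mem_filter, Finset.mem_powerset] at hS
    have hP' : ∀ t ∈ S.image (fun s : ℕ => (s : ℤ) - L1), -L1 ≤ t := by
      intro t ht
      rw [Finset.mem_image] at ht
      obtain ⟨s, hs, rfl⟩ := ht
      omega
    ext s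
    rw [mem_toN hP', Finset.mem_image]
    constructor
    · rintro ⟨s', hs', e⟩
      have : s' = s := by omega
      rwa [← this]
    · intro h
      exact ⟨s, h, rfl⟩
  · intro P _
    rfl

end sums

section main

variable {A : Type} [NormedRing A] [NormedAlgebra ℝ A]

theorem Dl_BL (AL AR Y v : A) {C c0 : ℕ} {lp lm : ℤ → ℕ} {L1 : ℤ}
    (hlp : ∀ t, c0 + lp t + 1 ≤ C) (hlm : ∀ t, c0 + lm t + 1 ≤ C) (P : Finset ℤ)
    (hP : ∀ t ∈ P, -L1 ≤ t) (L : ℕ) :
    Dl (BL AL AR Y v (C * L1 + c0) (C * L)) (C : ℤ) lp lm P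
      = AL * dlt (Y ^ C) (ct Y v C c0 lp L1) (ct Y v C c0 lm L1) L (toN L1 P) * AR := by
  unfold Dl dlt
  rw [BL_pos AL AR Y v hlp P hP L, BL_pos AL AR Y v hlm P hP L]
  noncomm_ring

/-- **The T-step, analytic frame**: with contexts `AL`, `AR`. -/
theorem core_split (h1 : ‖(1 : A)‖ ≤ 1) {Y v : A} (hY : ‖Y‖ ≤ 1) (AL AR : A)
    (hAL : ‖AL‖ ≤ 1) (hAR : ‖AR‖ ≤ 1) {C c0 : ℕ} {lp lm : ℤ → ℕ} {L1 L2 : ℤ} {L F : ℕ}
    (hL : (L : ℤ) = L1 + L2 + 1)
    (hlp : ∀ t, c0 + lp t + 1 ≤ C) (hlm : ∀ t, c0 + lm t + 1 ≤ C) {e e' : ℝ}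
    (he : ∀ s < L, ‖ct Y v C c0 lp L1 s‖ ≤ e) (he2 : ∀ s < L, ‖ct Y v C c0 lm L1 s‖ ≤ e)
    (he0 : 0 ≤ e) (he'0 : 0 ≤ e') (hLe : L * e ≤ 1 / 2)
    (hl : ∀ s < L, ‖AL * (Y ^ C) ^ s * ct Y v C c0 lp L1 s * (Y ^ C) ^ F‖ ≤ e' ∧
      ‖AL * (Y ^ C) ^ s * ct Y v C c0 lm L1 s * (Y ^ C) ^ F‖ ≤ e')
    (hr : ∀ s < L, ‖(Y ^ C) ^ F * ct Y v C c0 lp L1 s * (Y ^ C) ^ (L - 1 - s) * AR‖ ≤ e' ∧
      ‖(Y ^ C) ^ F * ct Y v C c0 lm L1 s * (Y ^ C) ^ (L - 1 - s) * AR‖ ≤ e') :
    ‖AL * (H117.seg (fun s => Y ^ C + ct Y v C c0 lm L1 s) 0 L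
        - H117.seg (fun s => Y ^ C + ct Y v C c0 lp L1 s) 0 L) * AR‖
      ≤ ‖∑ P ∈ (Icc (-L1) L2).powerset with P.card ≤ 3 ∧ Fine F P,
            Dl (BL AL AR Y v (C * L1 + c0) (C * L)) (C : ℤ) lp lm P‖
        + ‖∑ P ∈ (Icc (-L1) L2).powerset with P.card = 2 ∧ ¬ Fine F P,
            Dl (BL AL AR Y v (C * L1 + c0) (C * L)) (C : ℤ) lp lm P‖
        + 2 * L ^ 3 * (e ^ 2 * e') + 4 * (L * e) ^ 4 := by
  classical
  have hQ : ‖Y ^ C‖ ≤ 1 := norm_pow_le_one h1 hY C
  set 𝓕 : Finset (Finset ℕ) := (range L).powerset.filter fun S =>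
    S.card ≤ 2 ∨ (S.card = 3 ∧ FineN F S) with h𝓕
  have main := tail_bound h1 hQ (ct Y v C c0 lp L1) (ct Y v C c0 lm L1) AL AR hAL hAR (r := F)
    he he2 he0 he'0 hLe hl hr 𝓕 (Finset.filter_subset _ _)
    (fun S hS hc => by
      rw [h𝓕, Finset.mem_filter, Finset.mem_powerset]
      exact ⟨hS, Or.inl hc⟩)
    (fun S hS hc hn => by
      refine not_fine_iso hc fun hfine => hn ?_
      rw [h𝓕, Finset.mem_filter, Finset.mem_powerset]
      exact ⟨hS, Or.inr ⟨hc, hfine⟩⟩)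
  rw [seg_eq, seg_eq] at main
  refine main.trans ?_
  gcongr
  -- split the family
  have hsplit : ∑ S ∈ 𝓕, AL * dlt (Y ^ C) (ct Y v C c0 lp L1) (ct Y v C c0 lm L1) L S * AR
      = (∑ S ∈ (range L).powerset with
          (S.card ≤ 3 ∧ FineN F S),
          AL * dlt (Y ^ C) (ct Y v C c0 lp L1) (ct Y v C c0 lm L1) L S * AR)
        + ∑ S ∈ (range L).powerset with
          (S.card = 2 ∧ ¬ FineN F S),
          AL * dlt (Y ^ C) (ct Y v C c0 lp L1) (ct Y v C c0 lm L1) L S * AR := by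
    rw [← Finset.sum_union]
    · refine Finset.sum_congr ?_ fun _ _ => rfl
      ext S
      rw [h𝓕, Finset.mem_union, Finset.mem_filter, Finset.mem_filter, Finset.mem_filter]
      have hsmall : S.card ≤ 1 → FineN F S := by
        intro hc s hs t ht
        have : s = t := Finset.card_le_one.mp hc s hs t ht
        rw [this, sub_self, abs_zero]
        positivity
      constructor
      · rintro ⟨h1, h2 | ⟨h2, h3⟩⟩
        · by_cases hf : FineN F S
          · exact Or.inl ⟨h1, by omega, hf⟩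
          · right
            refine ⟨h1, ?_, hf⟩
            by_contra hne
            exact hf (hsmall (by omega))
        · exact Or.inl ⟨h1, by omega, h3⟩
      · rintro (⟨h1, h2, h3⟩ | ⟨h1, h2, h3⟩)
        · refine ⟨h1, ?_⟩
          by_cases hc : S.card ≤ 2
          · exact Or.inl hc
          · exact Or.inr ⟨by omega, h3⟩
        · exact ⟨h1, Or.inl (by omega)⟩
    · rw [Finset.disjoint_filter]
      rintro S _ ⟨_, h⟩ ⟨_, h'⟩
      exact h' h
  rw [hsplit]
  refine (norm_add_le _ _).trans (le_of_eq ?_)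
  congr 2
  · rw [← sum_toN (L2 := L2) hL
      (fun S => S.card ≤ 3 ∧ FineN F S)
      (fun P => P.card ≤ 3 ∧ Fine F P)
      (fun P hP => by rw [toN_card hP, fine_toN hP])
      (fun S => AL * dlt (Y ^ C) (ct Y v C c0 lp L1) (ct Y v C c0 lm L1) L S * AR)]
    refine Finset.sum_congr rfl fun P hP => ?_
    rw [Finset.mem_filter, Finset.mem_powerset] at hP
    exact (Dl_BL AL AR Y v hlp hlm P (fun t ht => (Finset.mem_Icc.mp (hP.1 ht)).1) L).symm
  · rw [← sum_toN (L2 := L2) hL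
      (fun S => S.card = 2 ∧ ¬ FineN F S)
      (fun P => P.card = 2 ∧ ¬ Fine F P)
      (fun P hP => by rw [toN_card hP, fine_toN hP])
      (fun S => AL * dlt (Y ^ C) (ct Y v C c0 lp L1) (ct Y v C c0 lm L1) L S * AR)]
    refine Finset.sum_congr rfl fun P hP => ?_
    rw [Finset.mem_filter, Finset.mem_powerset] at hP
    exact (Dl_BL AL AR Y v hlp hlm P (fun t ht => (Finset.mem_Icc.mp (hP.1 ht)).1) L).symm

/-- **The T-step, analytic frame, no context**: only the single `v`'s count. -/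
theorem one_split (h1 : ‖(1 : A)‖ ≤ 1) {Y v : A} (hY : ‖Y‖ ≤ 1)
    {C c0 : ℕ} {lp lm : ℤ → ℕ} {L1 L2 : ℤ} {L : ℕ}
    (hL : (L : ℤ) = L1 + L2 + 1)
    (hlp : ∀ t, c0 + lp t + 1 ≤ C) (hlm : ∀ t, c0 + lm t + 1 ≤ C) {e : ℝ}
    (he : ∀ s < L, ‖ct Y v C c0 lp L1 s‖ ≤ e) (he2 : ∀ s < L, ‖ct Y v C c0 lm L1 s‖ ≤ e)
    (he0 : 0 ≤ e) (hLe : L * e ≤ 1 / 2) :
    ‖H117.seg (fun s => Y ^ C + ct Y v C c0 lm L1 s) 0 L
        - H117.seg (fun s => Y ^ C + ct Y v C c0 lp L1 s) 0 L‖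
      ≤ ‖∑ P ∈ (Icc (-L1) L2).powerset with P.card = 1,
            Dl (BL 1 1 Y v (C * L1 + c0) (C * L)) (C : ℤ) lp lm P‖ + 4 * (L * e) ^ 2 := by
  classical
  have hQ : ‖Y ^ C‖ ≤ 1 := norm_pow_le_one h1 hY C
  have main := tail_card h1 hQ (ct Y v C c0 lp L1) (ct Y v C c0 lm L1) 1 1 h1 h1 2
    he he2 he0 hLe
  rw [seg_eq, seg_eq, one_mul, mul_one] at main
  refine main.trans ?_
  gcongr
  refine le_of_eq ?_
  congr 1
  have hz : ∑ S ∈ (range L).powerset with S.card < 2,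
      1 * dlt (Y ^ C) (ct Y v C c0 lp L1) (ct Y v C c0 lm L1) L S * 1
      = ∑ S ∈ (range L).powerset with S.card = 1,
      1 * dlt (Y ^ C) (ct Y v C c0 lp L1) (ct Y v C c0 lm L1) L S * 1 := by
    symm
    refine Finset.sum_subset ?_ ?_
    · intro S hS
      rw [Finset.mem_filter] at hS ⊢
      exact ⟨hS.1, by omega⟩
    · intro S hS hS'
      rw [Finset.mem_filter] at hS hS'
      have h0 : S.card = 0 := by
        by_contra h
        exact hS' ⟨hS.1, by omega⟩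
      rw [Finset.card_eq_zero] at h0
      subst h0
      have : dlt (Y ^ C) (ct Y v C c0 lp L1) (ct Y v C c0 lm L1) L ∅ = 0 := by
        unfold dlt
        rw [sub_eq_zero]
        refine seg_congr fun t _ _ => ?_
        unfold blk
        simp
      rw [this]
      simp
  rw [hz, ← sum_toN (L2 := L2) hL (fun S => S.card = 1) (fun P => P.card = 1)
      (fun P hP => by rw [toN_card hP])
      (fun S => 1 * dlt (Y ^ C) (ct Y v C c0 lp L1) (ct Y v C c0 lm L1) L S * 1)]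
  refine Finset.sum_congr rfl fun P hP => ?_
  rw [Finset.mem_filter, Finset.mem_powerset] at hP
  exact (Dl_BL 1 1 Y v hlp hlm P (fun t ht => (Finset.mem_Icc.mp (hP.1 ht)).1) L).symm

end main

end Vale.Agent.P321.H776
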