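import Vale.Agent.P321.H776.Seg

/-!
LB2, T-step, blocks (X) + (E).
-/

namespace Vale.Agent.P321.H776

open Finset

set_option linter.unusedSectionVars false

variable {A : Type*} [NormedRing A]

/-- left isolated content, with a context factor `AL`. -/
theorem norm_left_iso (h1 : ‖(1 : A)‖ ≤ 1) {Q : A} (hQ : ‖Q‖ ≤ 1) (f : ℕ → A) (AL : A)
    {S : Finset ℕ} {L s r : ℕ} {e e' : ℝ} (he : ∀ t ∈ S, ‖f t‖ ≤ e) (he0 : 0 ≤ e)
    (hS : S ⊆ Finset.range L) (hs : s ∈ S) (hr : s + r < L)
    (hiso : ∀ t ∈ S, t ≠ s → s + r < t) (he' : ‖AL * Q ^ s * f s * Q ^ r‖ ≤ e') :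
    ‖AL * seg (blk Q f S) 0 L‖ ≤ e ^ (S.card - 1) * e' := by
  obtain ⟨k2, hk2⟩ : ∃ k2, L = (s + 1 + r) + k2 := ⟨L - (s + 1 + r), by omega⟩
  set g := blk Q f S with hg
  have hmid : seg g 0 (s + 1 + r) = Q ^ s * f s * Q ^ r := by
    rw [seg_add, seg_succ]
    have e1 : seg g 0 s = Q ^ s := by
      rw [← seg_const Q 0 s]
      refine seg_congr fun t h1 h2 => ?_
      refine blk_of_notMem fun ht => ?_
      have := hiso t ht (by omega)
      omega
    have e2 : seg g (0 + (s + 1)) r = Q ^ r := by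
      rw [← seg_const Q (0 + (s + 1)) r]
      refine seg_congr fun t h1 h2 => ?_
      refine blk_of_notMem fun ht => ?_
      have := hiso t ht (by omega)
      omega
    have e3 : g (0 + s) = f s := by
      rw [Nat.zero_add]; exact blk_of_mem hs
    rw [e1, e2, e3]
  have hR : ‖seg g (0 + (s + 1 + r)) k2‖ ≤ e ^ (S.card - 1) := by
    have : seg g (0 + (s + 1 + r)) k2 =
        seg (blk Q f (S.erase s)) (0 + (s + 1 + r)) k2 := by
      refine seg_congr fun t h1 h2 => ?_
      rw [hg]; unfold blk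
      have : t ≠ s := by omega
      simp [this]
    rw [this, ← Finset.card_erase_of_mem hs]
    refine norm_blk_seg_le h1 hQ f (fun t ht => he t (Finset.mem_erase.mp ht).2) ?_
    intro t ht
    rw [Finset.mem_erase] at ht
    have h2 := Finset.mem_range.mp (hS ht.2)
    have h3 := hiso t ht.2 ht.1
    rw [Finset.mem_Ico]; omega
  have he'0 : 0 ≤ e' := le_trans (norm_nonneg _) he'
  rw [hk2, seg_add, hmid]
  calc ‖AL * (Q ^ s * f s * Q ^ r * seg g (0 + (s + 1 + r)) k2)‖
      = ‖(AL * Q ^ s * f s * Q ^ r) * seg g (0 + (s + 1 + r)) k2‖ := by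
        congr 1; noncomm_ring
    _ ≤ ‖AL * Q ^ s * f s * Q ^ r‖ * ‖seg g (0 + (s + 1 + r)) k2‖ := norm_mul_le _ _
    _ ≤ e' * e ^ (S.card - 1) := by gcongr
    _ = _ := by ring

/-- right isolated content, with a context factor `AR`. -/
theorem norm_right_iso (h1 : ‖(1 : A)‖ ≤ 1) {Q : A} (hQ : ‖Q‖ ≤ 1) (f : ℕ → A) (AR : A)
    {S : Finset ℕ} {L s r : ℕ} {e e' : ℝ} (he : ∀ t ∈ S, ‖f t‖ ≤ e) (he0 : 0 ≤ e)
    (hS : S ⊆ Finset.range L) (hs : s ∈ S) (hr : r ≤ s)
    (hiso : ∀ t ∈ S, t ≠ s → t + r < s) (he' : ‖Q ^ r * f s * Q ^ (L - 1 - s) * AR‖ ≤ e') :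
    ‖seg (blk Q f S) 0 L * AR‖ ≤ e ^ (S.card - 1) * e' := by
  have hsL : s < L := Finset.mem_range.mp (hS hs)
  obtain ⟨k1, hk1⟩ : ∃ k1, s = k1 + r := ⟨s - r, by omega⟩
  obtain ⟨k2, hk2, hk2'⟩ : ∃ k2, L = k1 + (r + 1 + k2) ∧ k2 = L - 1 - s :=
    ⟨L - 1 - s, by omega, rfl⟩
  set g := blk Q f S with hg
  have hmid : seg g (0 + k1) (r + 1 + k2) = Q ^ r * f s * Q ^ k2 := by
    rw [seg_add, seg_succ]
    have e1 : seg g (0 + k1) r = Q ^ r := by
      rw [← seg_const Q (0 + k1) r]
      refine seg_congr fun t h1 h2 => ?_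
      refine blk_of_notMem fun ht => ?_
      have := hiso t ht (by omega)
      omega
    have e2 : seg g (0 + k1 + (r + 1)) k2 = Q ^ k2 := by
      rw [← seg_const Q (0 + k1 + (r + 1)) k2]
      refine seg_congr fun t h1 h2 => ?_
      refine blk_of_notMem fun ht => ?_
      have := hiso t ht (by omega)
      omega
    have e3 : g (0 + k1 + r) = f s := by
      have : 0 + k1 + r = s := by omega
      rw [this]; exact blk_of_mem hs
    rw [e1, e2, e3]
  have hL : ‖seg g 0 k1‖ ≤ e ^ (S.card - 1) := by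
    have : seg g 0 k1 = seg (blk Q f (S.erase s)) 0 k1 := by
      refine seg_congr fun t h1 h2 => ?_
      rw [hg]; unfold blk
      have : t ≠ s := by omega
      simp [this]
    rw [this, ← Finset.card_erase_of_mem hs]
    refine norm_blk_seg_le h1 hQ f (fun t ht => he t (Finset.mem_erase.mp ht).2) ?_
    intro t ht
    rw [Finset.mem_erase] at ht
    have h3 := hiso t ht.2 ht.1
    rw [Finset.mem_Ico]; omega
  have he'0 : 0 ≤ e' := le_trans (norm_nonneg _) he'
  rw [hk2, seg_add, hmid]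
  calc ‖seg g 0 k1 * (Q ^ r * f s * Q ^ k2) * AR‖
      = ‖seg g 0 k1 * (Q ^ r * f s * Q ^ k2 * AR)‖ := by
        congr 1; noncomm_ring
    _ ≤ ‖seg g 0 k1‖ * ‖Q ^ r * f s * Q ^ k2 * AR‖ := norm_mul_le _ _
    _ ≤ e ^ (S.card - 1) * e' := by
        gcongr
        rw [hk2']; exact he'

/-- `∑_{|S| ≥ 4} e^|S| ≤ 2 (L e)^4` if `L e ≤ 1/2`. -/
theorem sum_card_ge_four {L : ℕ} {e : ℝ} (he0 : 0 ≤ e) (hLe : L * e ≤ 1 / 2) :
    ∑ S ∈ (Finset.range L).powerset.filter (fun S => 4 ≤ S.card), e ^ S.card ≤ 2 * (L * e) ^ 4 := by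
  have h1 : ∑ S ∈ (Finset.range L).powerset.filter (fun S => 4 ≤ S.card), e ^ S.card
      ≤ ∑ j ∈ Finset.Ico 4 (L + 1), (L * e) ^ j := by
    rw [← Finset.sum_fiberwise_of_maps_to (s := (Finset.range L).powerset.filter
      (fun S => 4 ≤ S.card)) (t := Finset.Ico 4 (L + 1)) (g := fun S => S.card)]
    · refine Finset.sum_le_sum fun j hj => ?_
      have h2 : ∑ S ∈ ((Finset.range L).powerset.filter (fun S => 4 ≤ S.card)).filter
          (fun S => S.card = j), e ^ S.card
          ≤ ∑ S ∈ (Finset.range L).powersetCard j, e ^ j := by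
        have h3 : ∑ S ∈ ((Finset.range L).powerset.filter (fun S => 4 ≤ S.card)).filter
          (fun S => S.card = j), e ^ S.card = ∑ S ∈ ((Finset.range L).powerset.filter
            (fun S => 4 ≤ S.card)).filter (fun S => S.card = j), e ^ j := by
          refine Finset.sum_congr rfl fun S hS => ?_
          rw [(Finset.mem_filter.mp hS).2]
        rw [h3]
        refine Finset.sum_le_sum_of_subset_of_nonneg ?_ fun _ _ _ => by positivity
        intro S hS
        simp only [Finset.mem_filter, Finset.mem_powerset] at hS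
        exact Finset.mem_powersetCard.mpr ⟨hS.1.1, hS.2⟩
      refine h2.trans ?_
      rw [Finset.sum_const, Finset.card_powersetCard, Finset.card_range, nsmul_eq_mul, mul_pow]
      gcongr
      exact_mod_cast Nat.choose_le_pow L j
    · intro S hS
      simp only [Finset.mem_filter, Finset.mem_powerset] at hS
      have := Finset.card_le_card hS.1
      rw [Finset.card_range] at this
      rw [Finset.mem_Ico]
      omega
  refine h1.trans ?_
  have hx0 : 0 ≤ (L : ℝ) * e := by positivity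
  have h3 : ∀ n : ℕ, ∑ j ∈ Finset.Ico 4 (n + 1), ((L : ℝ) * e) ^ j ≤ 2 * (L * e) ^ 4 := by
    intro n
    set x : ℝ := (L : ℝ) * e with hx
    have h4 : ∑ j ∈ Finset.Ico 4 (n + 1), x ^ j ≤ ∑ j ∈ Finset.range (n + 1), x ^ 4 * x ^ j := by
      rw [Finset.sum_Ico_eq_sum_range]
      calc ∑ i ∈ Finset.range (n + 1 - 4), x ^ (4 + i)
          = ∑ i ∈ Finset.range (n + 1 - 4), x ^ 4 * x ^ i := by
            refine Finset.sum_congr rfl fun i _ => ?_
            rw [pow_add]
        _ ≤ _ := by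
            refine Finset.sum_le_sum_of_subset_of_nonneg ?_ fun _ _ _ => by positivity
            exact Finset.range_mono (by omega)
    refine h4.trans ?_
    rw [← Finset.mul_sum]
    have h5 : ∑ i ∈ Finset.range (n + 1), x ^ i ≤ 2 := by
      have h6 : (∑ i ∈ Finset.range (n + 1), x ^ i) * (1 - x) = 1 - x ^ (n + 1) := by
        have := geom_sum_mul x (n + 1)
        linarith
      have h7 : 0 ≤ x ^ (n + 1) := by positivity
      have h8 : 0 ≤ ∑ i ∈ Finset.range (n + 1), x ^ i := Finset.sum_nonneg fun _ _ => by positivity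
      nlinarith
    calc x ^ 4 * ∑ i ∈ Finset.range (n + 1), x ^ i ≤ x ^ 4 * 2 := by gcongr
      _ = 2 * x ^ 4 := by ring
  exact h3 L

/-- `Δ(S)`: exact difference of the block products of the two content functions. -/
def dlt (Q : A) (f f' : ℕ → A) (L : ℕ) (S : Finset ℕ) : A :=
  seg (blk Q f' S) 0 L - seg (blk Q f S) 0 L

theorem diff_expand (Q : A) (f f' : ℕ → A) (L : ℕ) :
    seg (fun t => Q + f' t) 0 L - seg (fun t => Q + f t) 0 L
      = ∑ S ∈ (Finset.range L).powerset, dlt Q f f' L S := by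
  have h : Finset.Ico 0 (0 + L) = Finset.range L := by
    rw [Nat.zero_add, Finset.range_eq_Ico]
  rw [seg_expand, seg_expand, h, ← Finset.sum_sub_distrib]
  rfl

/-- **(E)+(X), main estimate**: all terms outside a family `𝓕` (which contains all `S` with at most
two elements and all the fine triples) are small. -/
theorem tail_bound (h1 : ‖(1 : A)‖ ≤ 1) {Q : A} (hQ : ‖Q‖ ≤ 1) (f f' : ℕ → A) (AL AR : A)
    (hAL : ‖AL‖ ≤ 1) (hAR : ‖AR‖ ≤ 1) {L r : ℕ} {e e' : ℝ}
    (he : ∀ t < L, ‖f t‖ ≤ e) (he2 : ∀ t < L, ‖f' t‖ ≤ e) (he0 : 0 ≤ e) (he'0 : 0 ≤ e')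
    (hLe : L * e ≤ 1 / 2)
    (hl : ∀ s < L, ‖AL * Q ^ s * f s * Q ^ r‖ ≤ e' ∧ ‖AL * Q ^ s * f' s * Q ^ r‖ ≤ e')
    (hr : ∀ s < L, ‖Q ^ r * f s * Q ^ (L - 1 - s) * AR‖ ≤ e' ∧
      ‖Q ^ r * f' s * Q ^ (L - 1 - s) * AR‖ ≤ e')
    (𝓕 : Finset (Finset ℕ)) (h𝓕 : 𝓕 ⊆ (Finset.range L).powerset)
    (h2 : ∀ S ⊆ Finset.range L, S.card ≤ 2 → S ∈ 𝓕)
    (h3 : ∀ S ⊆ Finset.range L, S.card = 3 → S ∉ 𝓕 →
      (∃ s ∈ S, ∀ t ∈ S, t ≠ s → s + r < t) ∨ (∃ s ∈ S, ∀ t ∈ S, t ≠ s → t + r < s)) :
    ‖AL * (seg (fun t => Q + f' t) 0 L - seg (fun t => Q + f t) 0 L) * AR‖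
      ≤ ‖∑ S ∈ 𝓕, AL * dlt Q f f' L S * AR‖ + 2 * L ^ 3 * (e ^ 2 * e') + 4 * (L * e) ^ 4 := by
  classical
  have hIco : ∀ S : Finset ℕ, S ⊆ Finset.range L → S ⊆ Finset.Ico 0 (0 + L) := by
    intro S hS
    rwa [Nat.zero_add, ← Finset.range_eq_Ico]
  rw [diff_expand, Finset.mul_sum, Finset.sum_mul]
  have hsplit : ∑ S ∈ (Finset.range L).powerset, AL * dlt Q f f' L S * AR
      = ∑ S ∈ 𝓕, AL * dlt Q f f' L S * AR
        + ∑ S ∈ (Finset.range L).powerset \ 𝓕, AL * dlt Q f f' L S * AR := by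
    rw [add_comm]
    exact (Finset.sum_sdiff h𝓕).symm
  rw [hsplit]
  refine (norm_add_le _ _).trans ?_
  rw [add_assoc]
  gcongr
  have hterm : ∀ S ∈ (Finset.range L).powerset \ 𝓕, ‖AL * dlt Q f f' L S * AR‖
      ≤ (if S.card = 3 then 2 * (e ^ 2 * e') else 0) + (if 4 ≤ S.card then 2 * e ^ S.card else 0) := by
    intro S hS
    rw [Finset.mem_sdiff, Finset.mem_powerset] at hS
    obtain ⟨hSL, hSF⟩ := hS
    have hcard : 3 ≤ S.card := by
      by_contra hlt
      exact hSF (h2 S hSL (by omega))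
    have hfS : ∀ t ∈ S, ‖f t‖ ≤ e := fun t ht => he t (Finset.mem_range.mp (hSL ht))
    have hfS' : ∀ t ∈ S, ‖f' t‖ ≤ e := fun t ht => he2 t (Finset.mem_range.mp (hSL ht))
    have hd : AL * dlt Q f f' L S * AR
        = AL * seg (blk Q f' S) 0 L * AR - AL * seg (blk Q f S) 0 L * AR := by
      unfold dlt; noncomm_ring
    rw [hd]
    rcases Nat.lt_or_ge S.card 4 with h4 | h4
    · have h5 : S.card = 3 := by omega
      rw [if_pos h5, if_neg (by omega), add_zero]
      have key : ‖AL * seg (blk Q f' S) 0 L * AR‖ ≤ e ^ 2 * e' ∧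
          ‖AL * seg (blk Q f S) 0 L * AR‖ ≤ e ^ 2 * e' := by
        have hc2 : e ^ (S.card - 1) = e ^ 2 := by rw [h5]
        rcases h3 S hSL h5 hSF with ⟨s, hs, hiso⟩ | ⟨s, hs, hiso⟩
        · have hsL : s < L := Finset.mem_range.mp (hSL hs)
          obtain ⟨t, ht, hts⟩ := Finset.exists_mem_ne (by omega : 1 < S.card) s
          have htL : t < L := Finset.mem_range.mp (hSL ht)
          have h6 := hiso t ht hts
          constructor
          · refine (norm_mul_le _ _).trans ?_
            have h7 := norm_left_iso h1 hQ f' AL hfS' he0 hSL hs (by omega) hiso (hl s hsL).2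
            rw [hc2] at h7
            calc _ ≤ (e ^ 2 * e') * 1 := by gcongr
              _ = _ := mul_one _
          · refine (norm_mul_le _ _).trans ?_
            have h7 := norm_left_iso h1 hQ f AL hfS he0 hSL hs (by omega) hiso (hl s hsL).1
            rw [hc2] at h7
            calc _ ≤ (e ^ 2 * e') * 1 := by gcongr
              _ = _ := mul_one _
        · have hsL : s < L := Finset.mem_range.mp (hSL hs)
          obtain ⟨t, ht, hts⟩ := Finset.exists_mem_ne (by omega : 1 < S.card) s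
          have htL : t < L := Finset.mem_range.mp (hSL ht)
          have h6 := hiso t ht hts
          constructor
          · rw [mul_assoc]
            refine (norm_mul_le _ _).trans ?_
            have h7 := norm_right_iso h1 hQ f' AR hfS' he0 hSL hs (by omega) hiso (hr s hsL).2
            rw [hc2] at h7
            calc _ ≤ 1 * (e ^ 2 * e') := by gcongr
              _ = _ := one_mul _
          · rw [mul_assoc]
            refine (norm_mul_le _ _).trans ?_
            have h7 := norm_right_iso h1 hQ f AR hfS he0 hSL hs (by omega) hiso (hr s hsL).1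
            rw [hc2] at h7
            calc _ ≤ 1 * (e ^ 2 * e') := by gcongr
              _ = _ := one_mul _
      refine (norm_sub_le _ _).trans ?_
      linarith [key.1, key.2]
    · rw [if_neg (by omega), if_pos h4, zero_add]
      have k1 : ‖AL * seg (blk Q f' S) 0 L * AR‖ ≤ e ^ S.card := by
        have := norm_blk_seg_le h1 hQ f' hfS' (hIco S hSL)
        calc _ ≤ ‖AL‖ * ‖seg (blk Q f' S) 0 L‖ * ‖AR‖ := by
              refine (norm_mul_le _ _).trans ?_
              gcongr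
              exact norm_mul_le _ _
          _ ≤ 1 * e ^ S.card * 1 := by gcongr
          _ = _ := by ring
      have k2 : ‖AL * seg (blk Q f S) 0 L * AR‖ ≤ e ^ S.card := by
        have := norm_blk_seg_le h1 hQ f hfS (hIco S hSL)
        calc _ ≤ ‖AL‖ * ‖seg (blk Q f S) 0 L‖ * ‖AR‖ := by
              refine (norm_mul_le _ _).trans ?_
              gcongr
              exact norm_mul_le _ _
          _ ≤ 1 * e ^ S.card * 1 := by gcongr
          _ = _ := by ring
      refine (norm_sub_le _ _).trans ?_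
      linarith
  refine (norm_sum_le _ _).trans ?_
  refine (Finset.sum_le_sum hterm).trans ?_
  have hnn : ∀ S : Finset ℕ, 0 ≤ (if S.card = 3 then 2 * (e ^ 2 * e') else 0)
      + (if 4 ≤ S.card then 2 * e ^ S.card else 0) := by
    intro S
    split_ifs <;> positivity
  refine (Finset.sum_le_sum_of_subset_of_nonneg (Finset.sdiff_subset) fun S _ _ => hnn S).trans ?_
  rw [Finset.sum_add_distrib]
  gcongr
  · rw [← Finset.sum_filter, Finset.sum_const, nsmul_eq_mul]
    have hc : ((Finset.range L).powerset.filter (fun S => S.card = 3)).card ≤ L ^ 3 := by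
      have : (Finset.range L).powerset.filter (fun S => S.card = 3)
          = (Finset.range L).powersetCard 3 := by
        ext S; simp [Finset.mem_powersetCard]
      rw [this, Finset.card_powersetCard, Finset.card_range]
      exact Nat.choose_le_pow L 3
    have hc' : (((Finset.range L).powerset.filter (fun S => S.card = 3)).card : ℝ) ≤ (L : ℝ) ^ 3 := by
      exact_mod_cast hc
    calc _ ≤ (L : ℝ) ^ 3 * (2 * (e ^ 2 * e')) := by gcongr
      _ = _ := by ring
  · rw [← Finset.sum_filter, ← Finset.mul_sum]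
    have := sum_card_ge_four he0 hLe
    linarith

/-- the context is a pure power of `Q` up to `2 n e`. -/
theorem seg_sub_pow (h1 : ‖(1 : A)‖ ≤ 1) {Q : A} (hQ : ‖Q‖ ≤ 1) (f : ℕ → A) {a n : ℕ} {e : ℝ}
    (he : ∀ t, a ≤ t → t < a + n → ‖f t‖ ≤ e) (he0 : 0 ≤ e)
    (hQf : ∀ t, a ≤ t → t < a + n → ‖Q + f t‖ ≤ 1) :
    ‖seg (fun t => Q + f t) a n - Q ^ n‖ ≤ n * e := by
  induction n with
  | zero => simp
  | succ n ih =>
    have ih' := ih (fun t h1 h2 => he t h1 (by omega)) (fun t h1 h2 => hQf t h1 (by omega))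
    have hs : ‖seg (fun t => Q + f t) a (n + 1) - Q ^ (n + 1)‖
        = ‖(seg (fun t => Q + f t) a n - Q ^ n) * (Q + f (a + n)) + Q ^ n * f (a + n)‖ := by
      rw [seg_succ, pow_succ]
      congr 1
      noncomm_ring
    rw [hs]
    have hQn : ‖Q ^ n‖ ≤ 1 := by
      induction n with
      | zero => simpa using h1
      | succ n _ =>
        refine (norm_pow_le' Q (Nat.succ_pos n)).trans ?_
        exact pow_le_one₀ (norm_nonneg _) hQ
    calc _ ≤ ‖seg (fun t => Q + f t) a n - Q ^ n‖ * ‖Q + f (a + n)‖ + ‖Q ^ n‖ * ‖f (a + n)‖ := by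
          refine (norm_add_le _ _).trans ?_
          gcongr
          · exact norm_mul_le _ _
          · exact norm_mul_le _ _
      _ ≤ (n * e) * 1 + 1 * e := by
          gcongr
          · exact hQf _ (by omega) (by omega)
          · exact he _ (by omega) (by omega)
      _ = _ := by push_cast; ring

end Vale.Agent.P321.H776
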